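import Vale.Agent.P050.Chk.Tab

/-! A kernel friendly enumeration of all feasible profiles in dimension ten (P050). -/

namespace Vale.Agent.P050.Chk

noncomputable def bif' {α : Type} (c : Bool) (a b : α) : α := Bool.rec (motive := fun _ => α) b a c

section Generic

variable (add sub mul div mod shr land : Nat → Nat → Nat) (ble beq : Nat → Nat → Bool)
  (rowA rowC : Nat → Nat → Nat)

noncomputable def mxG (a b : Nat) : Nat := add a (sub b a)

noncomputable def mnG (a b : Nat) : Nat := sub a (sub a b)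

/-- `f i` holds for all `lo ≤ i < n`. -/
noncomputable def allG (lo n : Nat) (f : Nat → Bool) : Bool :=
  Nat.rec (motive := fun _ => Bool) true
    (fun i acc => Bool.rec (motive := fun _ => Bool) true
      (Bool.rec (motive := fun _ => Bool) false acc (f i)) (ble lo i)) n

/-- An upper bound of `f i` for `lo ≤ i < n`. -/
noncomputable def maxG (lo n : Nat) (f : Nat → Nat) : Nat :=
  Nat.rec (motive := fun _ => Nat) (nat_lit 0)
    (fun i acc => Bool.rec (motive := fun _ => Nat) (nat_lit 0)
      (add (f i) (sub acc (f i))) (ble lo i)) n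

noncomputable def entG (R r s : Nat) : Nat :=
  mod (shr R (mul (nat_lit 56) (add (mul r (nat_lit 11)) s))) (nat_lit 72057594037927936)

noncomputable def triG (t : Nat) : Nat := div (mul t (add t (nat_lit 1))) (nat_lit 2)

/-- The six inequalities of the main check, five of them packed in one word. -/
noncomputable def leafG (t0 th m RB RC r1 r2 r3 e : Nat) : Bool :=
  (Bool.rec (motive := fun _ => Bool) false (Bool.rec (motive := fun _ => Bool) false (Bool.rec (motive := fun _ => Bool) true (let n := (add (shr m (nat_lit 50)) (Bool.rec (motive := fun _ => Nat) (nat_lit 0) (nat_lit 15) (beq r3 (nat_lit 5))));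
 (Bool.rec (motive := fun _ => Bool) true (ble (add e n) t0) (ble (nat_lit 30) n))) (ble (nat_lit 1125899906842624) m)) (beq (land (sub th (add (add m (mod (shr RC (mul (nat_lit 56) (add (mul r2 (nat_lit 11)) r3))) (nat_lit 72057594037927936))) (mul (add e (mod (mod (shr RB (mul (nat_lit 56) (add (mul r1 (nat_lit 11)) r3))) (nat_lit 72057594037927936)) (nat_lit 1024))) (nat_lit 1100586419201)))) (nat_lit 563500246630912)) (nat_lit 563500246630912))) (ble e (nat_lit 127)))

noncomputable def coreG (c k12 k13 k23 : Nat)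
    (leaf : Nat → Nat → Nat → Nat → Nat → Nat → Nat → Nat → Bool) : Bool :=
  (let R := (sub (add (add k12 k13) k23) c);
 (let K := (add (nat_lit 10) c);
 (let h := (div (sub K R) (nat_lit 2));
 (allG ble (nat_lit 0) (add k12 (nat_lit 1)) fun u12 =>
 (let RA := (rowA u12 k12);
 (let b12 := (sub (add (nat_lit 11) (mul (nat_lit 2) u12)) k12);
 (allG ble (nat_lit 0) (add k13 (nat_lit 1)) fun u13 =>
 (let RB := (rowC u13 k13);
 (let b13 := (sub (add (nat_lit 11) (mul (nat_lit 2) u13)) k13);
 (allG ble (nat_lit 0) (add k23 (nat_lit 1)) fun u23 =>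
 (let alo := (mxG add sub (mxG add sub (sub (add u12 c) k12) (sub (add u13 c) k13)) (sub (add u23 c) k23));
 (let ahi := (mnG sub (mnG sub c u12) (mnG sub u13 u23));
 (bif' (ble alo ahi) (let RC := (rowC u23 k23);
 (let su := (add (add u12 u13) u23);
 (let m1 := (mxG add sub u12 u13);
 (let m2 := (mxG add sub u12 u23);
 (let m3 := (mxG add sub u13 u23);
 (let b23 := (sub (add (nat_lit 11) (mul (nat_lit 2) u23)) k23);
 (allG ble (sub su ahi) (add (add R h) (nat_lit 1)) fun z =>
 (let g := (maxG add sub ble alo (add ahi (nat_lit 1)) fun a0 =>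
 (maxG add sub ble (mxG add sub (sub su a0) (sub z h)) (add (mnG sub R z) (nat_lit 1)) fun zr =>
 (let t := (sub z zr);
 (add (add (add (add (add (mul a0 (sub c a0)) (mul (sub u12 a0) (sub k12 u12))) (mul (sub u13 a0) (sub k13 u13))) (mul (sub u23 a0) (sub k23 u23))) (mul (sub (add zr a0) su) (sub R zr))) (sub (mul t (sub K z)) (triG add mul div t))))));
 (let l1 := (mxG add sub m1 (sub z u23));
 (let l2 := (mxG add sub m2 (sub z u13));
 (let l3 := (mxG add sub m3 (sub z u12));
 (let z11 := (add (nat_lit 11) z);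
 (let n2 := (mnG sub (nat_lit 11) (sub b23 l3));
 (allG ble l1 (mnG sub (mnG sub (mnG sub (nat_lit 11) (sub b12 l2)) (sub b13 l3)) (sub z11 (add l2 l3))) fun r1 =>
 (let e1 := (add g (mul (sub (add r1 u23) z) (sub (add (add (nat_lit 10) u12) u13) (add z r1))));
 (let n13 := (mnG sub (nat_lit 11) (sub b13 r1));
 (allG ble l2 (mnG sub (mnG sub (sub b12 r1) n2) (sub z11 (add r1 l3))) fun r2 =>
 (let e2 := (add e1 (mul (sub (add r2 u13) z) (sub (add (nat_lit 10) u12) (add r1 r2))));
 (let s0 := (sub z11 (add r1 r2));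
 (let m := (entG add mul mod shr RA r1 r2);
 (allG ble l3 (mnG sub (mnG sub s0 n13) (sub b23 r2)) fun r3 =>
 (let s := (sub s0 (add r3 (nat_lit 1)));
 (let e := (add (add e2 (mul (sub (add r3 u12) z) s)) (triG add mul div s));
 (leaf u12 m RB RC r1 r2 r3 e)))))))))))))))))))))))) true)))))))))))))

noncomputable def fastG (c k12 k13 k23 t0 th : Nat) : Bool :=
  (let R := (sub (add (add k12 k13) k23) c);
 (let K := (add (nat_lit 10) c);
 (let h := (div (sub K R) (nat_lit 2));
 (Nat.rec (motive := fun _ => Bool) true (fun u12 acc22 => Bool.rec (motive := fun _ => Bool) true (Bool.rec (motive := fun _ => Bool) false acc22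
 (let RA := (rowA u12 k12);
 (let b12 := (sub (add (nat_lit 11) (mul (nat_lit 2) u12)) k12);
 (Nat.rec (motive := fun _ => Bool) true (fun u13 acc21 => Bool.rec (motive := fun _ => Bool) true (Bool.rec (motive := fun _ => Bool) false acc21
 (let RB := (rowC u13 k13);
 (let b13 := (sub (add (nat_lit 11) (mul (nat_lit 2) u13)) k13);
 (Nat.rec (motive := fun _ => Bool) true (fun u23 acc20 => Bool.rec (motive := fun _ => Bool) true (Bool.rec (motive := fun _ => Bool) false acc20
 (let alo := (let v18 := (let v17 := (sub (add u12 c) k12); add v17 (sub (sub (add u13 c) k13) v17)); add v18 (sub (sub (add u23 c) k23) v18));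
 (let ahi := (let v19 := (sub c (sub c u12)); sub v19 (sub v19 (sub u13 (sub u13 u23))));
 (Bool.rec (motive := fun _ => Bool) true (let RC := (rowC u23 k23);
 (let su := (add (add u12 u13) u23);
 (let m1 := (add u12 (sub u13 u12));
 (let m2 := (add u12 (sub u23 u12));
 (let m3 := (add u13 (sub u23 u13));
 (let b23 := (sub (add (nat_lit 11) (mul (nat_lit 2) u23)) k23);
 (let lo16 := (sub su ahi); (Nat.rec (motive := fun _ => Bool) true (fun z acc15 => Bool.rec (motive := fun _ => Bool) true (Bool.rec (motive := fun _ => Bool) false acc15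
 (let g := (Nat.rec (motive := fun _ => Nat) (nat_lit 0) (fun a0 acc5 => Bool.rec (motive := fun _ => Nat) (nat_lit 0) (let v6 := (let lo4 := (let v1 := (sub su a0); add v1 (sub (sub z h) v1)); (Nat.rec (motive := fun _ => Nat) (nat_lit 0) (fun zr acc2 => Bool.rec (motive := fun _ => Nat) (nat_lit 0) (let v3 := (let t := (sub z zr);
 (add (add (add (add (add (mul a0 (sub c a0)) (mul (sub u12 a0) (sub k12 u12))) (mul (sub u13 a0) (sub k13 u13))) (mul (sub u23 a0) (sub k23 u23))) (mul (sub (add zr a0) su) (sub R zr))) (sub (mul t (sub K z)) (div (mul t (add t (nat_lit 1))) (nat_lit 2))))); add v3 (sub acc2 v3)) (ble lo4 zr)) (add (sub R (sub R z)) (nat_lit 1)))); add v6 (sub acc5 v6)) (ble alo a0)) (add ahi (nat_lit 1)));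
 (let l1 := (add m1 (sub (sub z u23) m1));
 (let l2 := (add m2 (sub (sub z u13) m2));
 (let l3 := (add m3 (sub (sub z u12) m3));
 (let z11 := (add (nat_lit 11) z);
 (let n2 := (sub (nat_lit 11) (sub (nat_lit 11) (sub b23 l3)));
 (Nat.rec (motive := fun _ => Bool) true (fun r1 acc14 => Bool.rec (motive := fun _ => Bool) true (Bool.rec (motive := fun _ => Bool) false acc14
 (let e1 := (add g (mul (sub (add r1 u23) z) (sub (add (add (nat_lit 10) u12) u13) (add z r1))));
 (let n13 := (sub (nat_lit 11) (sub (nat_lit 11) (sub b13 r1)));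
 (Nat.rec (motive := fun _ => Bool) true (fun r2 acc11 => Bool.rec (motive := fun _ => Bool) true (Bool.rec (motive := fun _ => Bool) false acc11
 (let e2 := (add e1 (mul (sub (add r2 u13) z) (sub (add (nat_lit 10) u12) (add r1 r2))));
 (let s0 := (sub z11 (add r1 r2));
 (let m := (mod (shr RA (mul (nat_lit 56) (add (mul r1 (nat_lit 11)) r2))) (nat_lit 72057594037927936));
 (Nat.rec (motive := fun _ => Bool) true (fun r3 acc8 => Bool.rec (motive := fun _ => Bool) true (Bool.rec (motive := fun _ => Bool) false acc8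
 (let s := (sub s0 (add r3 (nat_lit 1)));
 (let e := (add (add e2 (mul (sub (add r3 u12) z) s)) (div (mul s (add s (nat_lit 1))) (nat_lit 2)));
 (Bool.rec (motive := fun _ => Bool) false (Bool.rec (motive := fun _ => Bool) false (Bool.rec (motive := fun _ => Bool) true (let n := (add (shr m (nat_lit 50)) (Bool.rec (motive := fun _ => Nat) (nat_lit 0) (nat_lit 15) (beq r3 (nat_lit 5))));
 (Bool.rec (motive := fun _ => Bool) true (ble (add e n) t0) (ble (nat_lit 30) n))) (ble (nat_lit 1125899906842624) m)) (beq (land (sub th (add (add m (mod (shr RC (mul (nat_lit 56) (add (mul r2 (nat_lit 11)) r3))) (nat_lit 72057594037927936))) (mul (add e (mod (mod (shr RB (mul (nat_lit 56) (add (mul r1 (nat_lit 11)) r3))) (nat_lit 72057594037927936)) (nat_lit 1024))) (nat_lit 1100586419201)))) (nat_lit 563500246630912)) (nat_lit 563500246630912))) (ble e (nat_lit 127)))))) (ble l3 r3)) (let v7 := (sub s0 (sub s0 n13)); sub v7 (sub v7 (sub b23 r2)))))))) (ble l2 r2)) (let v10 := (let v9 := (sub b12 r1); sub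 v9 (sub v9 n2)); sub v10 (sub v10 (sub z11 (add r1 l3)))))))) (ble l1 r1)) (let v13 := (let v12 := (sub (nat_lit 11) (sub (nat_lit 11) (sub b12 l2))); sub v12 (sub v12 (sub b13 l3))); sub v13 (sub v13 (sub z11 (add l2 l3)))))))))))) (ble lo16 z)) (add (add R h) (nat_lit 1)))))))))) (ble alo ahi))))) (ble (nat_lit 0) u23)) (add k23 (nat_lit 1)))))) (ble (nat_lit 0) u13)) (add k13 (nat_lit 1)))))) (ble (nat_lit 0) u12)) (add k12 (nat_lit 1))))))

theorem fastG_eq (c k12 k13 k23 t0 th : Nat) :
    fastG add sub mul div mod shr land ble beq rowA rowC c k12 k13 k23 t0 th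
      = coreG add sub mul div mod shr ble rowA rowC c k12 k13 k23
        (fun _ => leafG add sub mul mod shr land ble beq t0 th) := rfl

end Generic

noncomputable def ta (u : Nat) : Nat :=
  bif' (Nat.ble u 4)
    (bif' (Nat.ble u 1) (bif' (Nat.ble u 0) ta0 ta1)
      (bif' (Nat.ble u 2) ta2 (bif' (Nat.ble u 3) ta3 ta4)))
    (bif' (Nat.ble u 7) (bif' (Nat.ble u 5) ta5 (bif' (Nat.ble u 6) ta6 ta7))
      (bif' (Nat.ble u 8) ta8 (bif' (Nat.ble u 9) ta9 ta10)))

noncomputable def tc (u : Nat) : Nat :=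
  bif' (Nat.ble u 4)
    (bif' (Nat.ble u 1) (bif' (Nat.ble u 0) tc0 tc1)
      (bif' (Nat.ble u 2) tc2 (bif' (Nat.ble u 3) tc3 tc4)))
    (bif' (Nat.ble u 7) (bif' (Nat.ble u 5) tc5 (bif' (Nat.ble u 6) tc6 tc7))
      (bif' (Nat.ble u 8) tc8 (bif' (Nat.ble u 9) tc9 tc10)))

noncomputable def tp (u : Nat) : Nat :=
  bif' (Nat.ble u 4)
    (bif' (Nat.ble u 1) (bif' (Nat.ble u 0) tp0 tp1)
      (bif' (Nat.ble u 2) tp2 (bif' (Nat.ble u 3) tp3 tp4)))
    (bif' (Nat.ble u 7) (bif' (Nat.ble u 5) tp5 (bif' (Nat.ble u 6) tp6 tp7))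
      (bif' (Nat.ble u 8) tp8 (bif' (Nat.ble u 9) tp9 tp10)))

noncomputable def row (B k : Nat) : Nat :=
  Nat.mod (Nat.shiftRight B (Nat.mul (nat_lit 6776) k)) (Nat.pow (nat_lit 2) (nat_lit 6776))

noncomputable def rowA (u k : Nat) : Nat := row (ta u) k
noncomputable def rowC (u k : Nat) : Nat := row (tc u) k
noncomputable def rowP (u k : Nat) : Nat := row (tp u) k

noncomputable def ent (R r s : Nat) : Nat := entG Nat.add Nat.mul Nat.mod Nat.shiftRight R r s

noncomputable def tA (c a b d : Nat) : Nat := ent (rowA c a) b d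
noncomputable def tC (c a b d : Nat) : Nat := ent (rowC c a) b d
noncomputable def tP (c a b d : Nat) : Nat := ent (rowP c a) b d

noncomputable def allR (lo n : Nat) (f : Nat → Bool) : Bool := allG Nat.ble lo n f

noncomputable def core (c k12 k13 k23 : Nat)
    (leaf : Nat → Nat → Nat → Nat → Nat → Nat → Nat → Nat → Bool) : Bool :=
  coreG Nat.add Nat.sub Nat.mul Nat.div Nat.mod Nat.shiftRight Nat.ble rowA rowC c k12 k13 k23 leaf

noncomputable def tgt0 (c k12 k13 k23 : Nat) : Nat := Nat.add 55 (Nat.mod (tC c k12 k13 k23) 1024)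

noncomputable def tgtH (c k12 k13 k23 : Nat) : Nat :=
  Nat.add (Nat.add (Nat.mod (Nat.shiftRight (tA c k12 k13 k23) 10) 1024)
      (Nat.mul 1024 (Nat.shiftRight (tC c k12 k13 k23) 20)))
    (Nat.add (Nat.mul 1099511627776 (tP c k12 k13 k23)) 72681626537614903)

noncomputable def mainAt (c k12 k13 k23 : Nat) : Bool :=
  fastG Nat.add Nat.sub Nat.mul Nat.div Nat.mod Nat.shiftRight Nat.land Nat.ble Nat.beq rowA rowC
    c k12 k13 k23 (tgt0 c k12 k13 k23) (tgtH c k12 k13 k23)

/-- The main check for all valid `k23`. -/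
noncomputable def mainK (c k12 k13 : Nat) : Bool :=
  allR c (mnG Nat.sub 11 (Nat.sub (Nat.add 11 (Nat.mul 2 c)) (Nat.add k12 k13))) fun k23 =>
  mainAt c k12 k13 k23

/-- The main check for all valid `k13`, `k23`. -/
noncomputable def mainCK (c k12 : Nat) : Bool := allR c 11 fun k13 => mainK c k12 k13

noncomputable def ph (c a b d : Nat) : Nat := Nat.mod (tC c a b d) 1024
noncomputable def ps1 (c a b d : Nat) : Nat := Nat.mod (Nat.shiftRight (tA c a b d) 10) 1024
noncomputable def ps2 (c a b d : Nat) : Nat := Nat.mod (Nat.shiftRight (tC c a b d) 20) 1024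
noncomputable def ps3 (c a b d : Nat) : Nat := Nat.mod (Nat.shiftRight (tC c a b d) 30) 1024
noncomputable def ps4 (c a b d : Nat) : Nat := Nat.mod (Nat.shiftRight (tC c a b d) 40) 1024
noncomputable def ps5 (c a b d : Nat) : Nat := tP c a b d

noncomputable def is5 (r : Nat) : Nat := bif' (Nat.beq r 5) 15 0

/-- Consistency of the packed tables at one index. -/
noncomputable def tabAt (c a b d : Nat) : Bool :=
  Nat.beq (tA c a b d) (ph c a b d * 1100586418177 + ps1 c a b d * 1024
      + (is5 b + is5 d) * 1125899906842624) &&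
    Nat.beq (tC c a b d) (ph c a b d * 1025 + ps2 c a b d * 1048576 + ps3 c a b d * 1073741824
      + ps4 c a b d * 1099511627776) &&
    Nat.beq (tgtH c a b d) (ps1 c a b d + ps2 c a b d * 1024 + ps3 c a b d * 1048576
      + ps4 c a b d * 1073741824 + ps5 c a b d * 1099511627776 + 72681626537614903) &&
    Nat.ble (ph c a b d) 127 && Nat.ble (ps1 c a b d) 127 && Nat.ble (ps2 c a b d) 127 &&
    Nat.ble (ps3 c a b d) 127 && Nat.ble (ps4 c a b d) 127 && Nat.ble (ps5 c a b d) 127

noncomputable def tabOK : Bool :=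
  allR 0 11 fun c => allR c 11 fun a => allR c 11 fun b =>
  allR c (mnG Nat.sub 11 (Nat.sub (Nat.add 11 (Nat.mul 2 c)) (Nat.add a b))) fun d => tabAt c a b d

/-- At a triple in general position every degenerate profile loses a factor `q`. -/
noncomputable def degOK : Bool :=
  core 0 0 0 0 fun _ m RB RC r1 r2 r3 e => Nat.beq (r1 + r2 + r3) 0 ||
    leafG Nat.add Nat.sub Nat.mul Nat.mod Nat.shiftRight Nat.land Nat.ble Nat.beq 1000
      72680525951195702 m RB RC r1 r2 r3 e

/-- The bound after integrating the third vertex of the outer face. -/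
noncomputable def th (k : Nat) : Nat := [0, 0, 2, 2, 6, 6, 13, 13, 25, 25, 40].getD k 0

noncomputable def closeOK : Bool :=
  allR 0 11 fun k => core k k k 10 fun u _ _ _ r1 r2 _ e =>
    Nat.ble (e + ph u k r1 r2 + ps5 u k r1 r2) (55 + th k) &&
      (Nat.beq (r1 + r2) 0 || Nat.ble 1 k || Nat.ble (e + ph u k r1 r2 + ps5 u k r1 r2) 54)

noncomputable def finalOK : Bool :=
  core 10 10 10 10 fun _ _ _ _ r1 _ _ e =>
    Nat.ble (e + th r1) 55 && (Nat.beq r1 0 || Nat.ble (e + th r1) 54)

noncomputable def zeroOK : Bool :=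
  Nat.beq (ph 0 0 0 0 + ps1 0 0 0 0 + ps2 0 0 0 0 + ps3 0 0 0 0 + ps4 0 0 0 0 + ps5 0 0 0 0) 0

end Vale.Agent.P050.Chk
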