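import Vale.Agent.P050.Chk.Core

namespace Vale.Agent.P050.Chk

theorem main_1_2 : mainCK 1 2 = true := by decide +kernel

theorem main_1_7 : mainCK 1 7 = true := by decide +kernel

theorem main_2_6 : mainCK 2 6 = true := by decide +kernel

theorem main_2_8 : mainCK 2 8 = true := by decide +kernel

theorem main_3_3 : mainCK 3 3 = true := by decide +kernel

theorem main_4_7 : mainCK 4 7 = true := by decide +kernel

theorem main_5_9 : mainCK 5 9 = true := by decide +kernel

theorem main_7_8 : mainCK 7 8 = true := by decide +kernel

theorem main_10_10 : mainCK 10 10 = true := by decide +kernel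

end Vale.Agent.P050.Chk
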