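import Vale.Agent.P050.Chk.Core

namespace Vale.Agent.P050.Chk

theorem main_0_2 : mainCK 0 2 = true := by decide +kernel

theorem main_0_7 : mainCK 0 7 = true := by decide +kernel

theorem main_1_8 : mainCK 1 8 = true := by decide +kernel

theorem main_3_4 : mainCK 3 4 = true := by decide +kernel

theorem main_3_7 : mainCK 3 7 = true := by decide +kernel

theorem main_4_4 : mainCK 4 4 = true := by decide +kernel

theorem main_5_5 : mainCK 5 5 = true := by decide +kernel

theorem main_6_8 : mainCK 6 8 = true := by decide +kernel

theorem main_8_9 : mainCK 8 9 = true := by decide +kernel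

end Vale.Agent.P050.Chk
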