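import Vale.Agent.P050.Chk.Core

namespace Vale.Agent.P050.Chk

theorem main_0_1 : mainCK 0 1 = true := by decide +kernel

theorem main_0_6 : mainCK 0 6 = true := by decide +kernel

theorem main_2_5 : mainCK 2 5 = true := by decide +kernel

theorem main_4_6 : mainCK 4 6 = true := by decide +kernel

theorem main_4_10 : mainCK 4 10 = true := by decide +kernel

theorem main_6_7 : mainCK 6 7 = true := by decide +kernel

theorem main_8_8 : mainCK 8 8 = true := by decide +kernel

end Vale.Agent.P050.Chk
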