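import Vale.Agent.P050.Chk.Core

namespace Vale.Agent.P050.Chk

theorem main_0_8 : mainCK 0 8 = true := by decide +kernel

theorem main_1_3 : mainCK 1 3 = true := by decide +kernel

theorem main_1_5 : mainCK 1 5 = true := by decide +kernel

theorem main_1_9 : mainCK 1 9 = true := by decide +kernel

theorem main_3_8 : mainCK 3 8 = true := by decide +kernel

theorem main_4_5 : mainCK 4 5 = true := by decide +kernel

theorem main_5_6 : mainCK 5 6 = true := by decide +kernel

theorem main_6_9 : mainCK 6 9 = true := by decide +kernel

theorem main_8_10 : mainCK 8 10 = true := by decide +kernel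

end Vale.Agent.P050.Chk
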