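import Vale.Agent.P050.Chk.Core

namespace Vale.Agent.P050.Chk

theorem main_0_3 : mainCK 0 3 = true := by decide +kernel

theorem main_0_4 : mainCK 0 4 = true := by decide +kernel

theorem main_0_5 : mainCK 0 5 = true := by decide +kernel

theorem main_2_9 : mainCK 2 9 = true := by decide +kernel

theorem main_4_8 : mainCK 4 8 = true := by decide +kernel

theorem main_5_10 : mainCK 5 10 = true := by decide +kernel

theorem main_7_9 : mainCK 7 9 = true := by decide +kernel

end Vale.Agent.P050.Chk
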