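import Vale.Agent.P050.Chk.Core

namespace Vale.Agent.P050.Chk

theorem main_1_1 : mainCK 1 1 = true := by decide +kernel

theorem main_2_2 : mainCK 2 2 = true := by decide +kernel

theorem main_2_10 : mainCK 2 10 = true := by decide +kernel

theorem main_3_5 : mainCK 3 5 = true := by decide +kernel

theorem main_4_9 : mainCK 4 9 = true := by decide +kernel

theorem main_6_6 : mainCK 6 6 = true := by decide +kernel

theorem main_7_10 : mainCK 7 10 = true := by decide +kernel

end Vale.Agent.P050.Chk
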