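import Vale.Agent.P050.Chk.Core

namespace Vale.Agent.P050.Chk

theorem main_0_0 : mainCK 0 0 = true := by decide +kernel

theorem main_0_9 : mainCK 0 9 = true := by decide +kernel

theorem main_1_4 : mainCK 1 4 = true := by decide +kernel

theorem main_1_10 : mainCK 1 10 = true := by decide +kernel

theorem main_3_6 : mainCK 3 6 = true := by decide +kernel

theorem main_3_9 : mainCK 3 9 = true := by decide +kernel

theorem main_5_7 : mainCK 5 7 = true := by decide +kernel

theorem main_6_10 : mainCK 6 10 = true := by decide +kernel

theorem main_9_9 : mainCK 9 9 = true := by decide +kernel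

end Vale.Agent.P050.Chk
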