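import Vale.Agent.P050.Chk.Core

namespace Vale.Agent.P050.Chk

theorem tabOK_true : tabOK = true := by decide +kernel

theorem degOK_true : degOK = true := by decide +kernel

theorem closeOK_true : closeOK = true := by decide +kernel

theorem finalOK_true : finalOK = true := by decide +kernel

theorem zeroOK_true : zeroOK = true := by decide +kernel

end Vale.Agent.P050.Chk
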